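import Crest.Agent.X212.Cs52.Sph
import Crest.Agent.X212.Top11.Sg
import Crest.Agent.X212.Top11.Q
import Crest.Agent.X212.Top11.Ex
import Crest.Agent.X212.Top11.Mid
import Crest.Agent.X212.Top11.Ph
import Crest.Agent.X212.Cut7.NG
import Crest.Agent.X212.Cut7.NM
import Crest.Agent.X212.Mv17.Cln
import Crest.Agent.X212.Mv17.Rel
import Crest.Agent.X212.Es42.Mrs
import Crest.Agent.X212.Es42.Red
import Crest.Agent.X212.Es42.Est
import Crest.Agent.X212.Es42.Slc
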